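import Vale.Agent.Lib.P252.Defs

/-!
# P252 (helper24): entire separable solutions of the affine maximal equation

If `u(x) = f_1(x_1) + ... + f_n(x_n)` on all of `R^n` has positive definite Hessian and solves
the affine maximal equation, then every `f_i` is a quadratic polynomial.
-/

namespace Vale.Agent.Lib.P252.Sep

open Vale.Agent.Lib.P252

variable {n : ℕ}

/-- A function of the single coordinate `i`. -/
lemma hasFDerivAt_coord (G : ℝ → ℝ) (G' : ℝ) (y : EuclideanSpace ℝ (Fin n)) (i : Fin n)
    (hG : HasDerivAt G G' (y i)) :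
    HasFDerivAt (fun z : EuclideanSpace ℝ (Fin n) => G (z i))
      (G' • (EuclideanSpace.proj i : EuclideanSpace ℝ (Fin n) →L[ℝ] ℝ)) y := by
  have hB : HasFDerivAt (fun z : EuclideanSpace ℝ (Fin n) => z i)
      (EuclideanSpace.proj i : EuclideanSpace ℝ (Fin n) →L[ℝ] ℝ) y :=
    (EuclideanSpace.proj i : EuclideanSpace ℝ (Fin n) →L[ℝ] ℝ).hasFDerivAt
  exact hG.comp_hasFDerivAt y hB

lemma fderiv_coord_single (G : ℝ → ℝ) (G' : ℝ) (y : EuclideanSpace ℝ (Fin n)) (i j : Fin n)
    (hG : HasDerivAt G G' (y i)) :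
    fderiv ℝ (fun z : EuclideanSpace ℝ (Fin n) => G (z i)) y (EuclideanSpace.single j 1)
      = if i = j then G' else 0 := by
  rw [(hasFDerivAt_coord G G' y i hG).fderiv]
  by_cases hij : i = j
  · simp [hij]
  · simp [hij]

/-- A function that is constant along the line through `y` in the direction `v` has zero
derivative at `y` in the direction `v`. -/
lemma fderiv_eq_zero_of_line_const (F : EuclideanSpace ℝ (Fin n) → ℝ)
    (y v : EuclideanSpace ℝ (Fin n)) (hF : DifferentiableAt ℝ F y)
    (hc : ∀ t : ℝ, F (y + t • v) = F y) : fderiv ℝ F y v = 0 := by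
  have hline : HasDerivAt (fun t : ℝ => y + t • v) v 0 := by
    have h1 : HasDerivAt (fun t : ℝ => t • v) ((1 : ℝ) • v) 0 :=
      (hasDerivAt_id (0 : ℝ)).smul_const v
    simpa using h1.const_add y
  have hF' : HasFDerivAt F (fderiv ℝ F y) (y + (0 : ℝ) • v) := by
    simpa using hF.hasFDerivAt
  have hcomp : HasDerivAt (fun t : ℝ => F (y + t • v)) (fderiv ℝ F y v) 0 :=
    hF'.comp_hasDerivAt (0 : ℝ) hline
  have hconst : HasDerivAt (fun t : ℝ => F (y + t • v)) 0 0 := by
    have e : (fun t : ℝ => F (y + t • v)) = fun _ => F y := funext hc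
    rw [e]
    exact hasDerivAt_const 0 (F y)
  exact hcomp.unique hconst

/-- Product rule in the direction of the coordinate `i` when the second factor does not
change in that direction. -/
lemma fderiv_coord_mul (G : ℝ → ℝ) (G' : ℝ) (B : EuclideanSpace ℝ (Fin n) → ℝ)
    (y : EuclideanSpace ℝ (Fin n)) (i : Fin n) (hG : HasDerivAt G G' (y i))
    (hB : DifferentiableAt ℝ B y) (hB0 : fderiv ℝ B y (EuclideanSpace.single i 1) = 0) :
    fderiv ℝ (fun z : EuclideanSpace ℝ (Fin n) => G (z i) * B z) y (EuclideanSpace.single i 1)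
      = G' * B y := by
  have h1 := hasFDerivAt_coord G G' y i hG
  have h3 : HasFDerivAt (fun z : EuclideanSpace ℝ (Fin n) => G (z i) * B z)
      (G (y i) • fderiv ℝ B y + B y • (G' • (EuclideanSpace.proj i :
        EuclideanSpace ℝ (Fin n) →L[ℝ] ℝ))) y := h1.mul hB.hasFDerivAt
  rw [h3.fderiv]
  simp [hB0]
  ring

/-- The product of the factors other than the `i`-th one. -/
noncomputable def restProd (g : Fin n → ℝ → ℝ) (i : Fin n) (y : EuclideanSpace ℝ (Fin n)) : ℝ :=
  ∏ j ∈ Finset.univ.erase i, g j (y j)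

lemma differentiableAt_restProd (g : Fin n → ℝ → ℝ) (hg : ∀ j, Differentiable ℝ (g j))
    (i : Fin n) (y : EuclideanSpace ℝ (Fin n)) : DifferentiableAt ℝ (restProd g i) y := by
  have h := HasFDerivAt.finsetProd (u := Finset.univ.erase i) (x := y)
    (g := fun j (z : EuclideanSpace ℝ (Fin n)) => g j (z j))
    (fun j _ => hasFDerivAt_coord (g j) _ y j ((hg j) (y j)).hasDerivAt)
  exact h.differentiableAt

lemma restProd_line (g : Fin n → ℝ → ℝ) (i : Fin n) (y : EuclideanSpace ℝ (Fin n)) (t : ℝ) :
    restProd g i (y + t • EuclideanSpace.single i 1) = restProd g i y := by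
  unfold restProd
  refine Finset.prod_congr rfl (fun j hj => ?_)
  have hji : j ≠ i := Finset.ne_of_mem_erase hj
  simp [hji]

lemma prod_eq_mul_restProd (g : Fin n → ℝ → ℝ) (i : Fin n) (y : EuclideanSpace ℝ (Fin n)) :
    ∏ j, g j (y j) = g i (y i) * restProd g i y := by
  unfold restProd
  exact (Finset.mul_prod_erase Finset.univ (fun j => g j (y j)) (Finset.mem_univ i)).symm

/-- The diagonal entries of the Hessian of a product of functions of the single coordinates. -/
lemma hess_prod_diag (g : Fin n → ℝ → ℝ) (hg : ∀ j, Differentiable ℝ (g j))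
    (hg' : ∀ j, Differentiable ℝ (deriv (g j))) (x : EuclideanSpace ℝ (Fin n)) (i : Fin n) :
    hess (fun y : EuclideanSpace ℝ (Fin n) => ∏ j, g j (y j)) x i i
      = deriv (deriv (g i)) (x i) * restProd g i x := by
  unfold hess
  have h1 : ∀ y : EuclideanSpace ℝ (Fin n),
      fderiv ℝ (fun z : EuclideanSpace ℝ (Fin n) => ∏ j, g j (z j)) y (EuclideanSpace.single i 1)
        = deriv (g i) (y i) * restProd g i y := by
    intro y
    have e : (fun z : EuclideanSpace ℝ (Fin n) => ∏ j, g j (z j))
        = fun z => g i (z i) * restProd g i z := funext (prod_eq_mul_restProd g i)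
    rw [e]
    exact fderiv_coord_mul (g i) _ (restProd g i) y i ((hg i) (y i)).hasDerivAt
      (differentiableAt_restProd g hg i y)
      (fderiv_eq_zero_of_line_const _ _ _ (differentiableAt_restProd g hg i y)
        (restProd_line g i y))
  have e2 : (fun y : EuclideanSpace ℝ (Fin n) =>
      fderiv ℝ (fun z : EuclideanSpace ℝ (Fin n) => ∏ j, g j (z j)) y
        (EuclideanSpace.single i 1))
      = fun y => deriv (g i) (y i) * restProd g i y := funext h1
  rw [e2]
  exact fderiv_coord_mul (deriv (g i)) _ (restProd g i) x i ((hg' i) (x i)).hasDerivAt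
    (differentiableAt_restProd g hg i x)
    (fderiv_eq_zero_of_line_const _ _ _ (differentiableAt_restProd g hg i x)
      (restProd_line g i x))

lemma fderiv_sum_single (f : Fin n → ℝ → ℝ) (hf : ∀ j, Differentiable ℝ (f j))
    (y : EuclideanSpace ℝ (Fin n)) (i : Fin n) :
    fderiv ℝ (fun z : EuclideanSpace ℝ (Fin n) => ∑ j, f j (z j)) y (EuclideanSpace.single i 1)
      = deriv (f i) (y i) := by
  have h : HasFDerivAt (fun z : EuclideanSpace ℝ (Fin n) => ∑ j, f j (z j))
      (∑ j, deriv (f j) (y j) • (EuclideanSpace.proj j : EuclideanSpace ℝ (Fin n) →L[ℝ] ℝ)) y :=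
    HasFDerivAt.fun_sum (fun j _ => hasFDerivAt_coord (f j) _ y j ((hf j) (y j)).hasDerivAt)
  rw [h.fderiv]
  simp

/-- The Hessian of a sum of functions of the single coordinates is diagonal. -/
lemma hess_sum (f : Fin n → ℝ → ℝ) (hf : ∀ j, Differentiable ℝ (f j))
    (hf' : ∀ j, Differentiable ℝ (deriv (f j))) (x : EuclideanSpace ℝ (Fin n)) :
    hess (fun y : EuclideanSpace ℝ (Fin n) => ∑ j, f j (y j)) x
      = Matrix.diagonal (fun i => deriv (deriv (f i)) (x i)) := by
  funext i j
  unfold hess
  have e : (fun y : EuclideanSpace ℝ (Fin n) =>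
      fderiv ℝ (fun z : EuclideanSpace ℝ (Fin n) => ∑ j, f j (z j)) y
        (EuclideanSpace.single i 1))
      = fun y => deriv (f i) (y i) := funext (fun y => fderiv_sum_single f hf y i)
  rw [e, fderiv_coord_single (deriv (f i)) _ x i j ((hf' i) (x i)).hasDerivAt]
  by_cases hij : i = j
  · subst hij
    simp
  · simp [hij]

/-- A positive function on the whole line with nonpositive second derivative has vanishing
first derivative. -/
lemma deriv_eq_zero_of_pos_of_deriv2_nonpos (G : ℝ → ℝ) (hG : Differentiable ℝ G)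
    (hG' : Differentiable ℝ (deriv G)) (hpos : ∀ t, 0 < G t)
    (h2 : ∀ t, deriv (deriv G) t ≤ 0) : ∀ t, deriv G t = 0 := by
  have hanti : Antitone (deriv G) := antitone_of_deriv_nonpos hG' h2
  intro t0
  by_contra hs
  have key : ∀ t, G t ≤ G t0 + deriv G t0 * (t - t0) := by
    intro t
    rcases lt_trichotomy t t0 with h | h | h
    · obtain ⟨ξ, hξ, hξe⟩ := exists_deriv_eq_slope G h hG.continuous.continuousOn
        hG.differentiableOn
      have h1 : deriv G t0 ≤ deriv G ξ := hanti hξ.2.le
      have h2' : 0 < t0 - t := by linarith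
      rw [hξe, le_div_iff₀ h2'] at h1
      nlinarith
    · rw [h]
      simp
    · obtain ⟨ξ, hξ, hξe⟩ := exists_deriv_eq_slope G h hG.continuous.continuousOn
        hG.differentiableOn
      have h1 : deriv G ξ ≤ deriv G t0 := hanti hξ.1.le
      have h2' : 0 < t - t0 := by linarith
      rw [hξe, div_le_iff₀ h2'] at h1
      linarith
  have hk := key (t0 - (G t0 + 1) / deriv G t0)
  have hp := hpos (t0 - (G t0 + 1) / deriv G t0)
  have e : deriv G t0 * (t0 - (G t0 + 1) / deriv G t0 - t0) = -(G t0 + 1) := by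
    field_simp
    ring
  rw [e] at hk
  linarith

/-- Separation of variables: if the sum of functions of the single coordinates vanishes
identically, each of them is constant. -/
lemma separate (k : Fin n → ℝ → ℝ)
    (hk : ∀ x : EuclideanSpace ℝ (Fin n), ∑ i, k i (x i) = 0) (i : Fin n) (t : ℝ) :
    k i t = k i 0 := by
  have h1 := hk (EuclideanSpace.single i t)
  have h0 := hk 0
  rw [← Finset.add_sum_erase _ _ (Finset.mem_univ i)] at h1 h0
  have e : ∑ j ∈ Finset.univ.erase i,
        k j ((EuclideanSpace.single i t : EuclideanSpace ℝ (Fin n)) j)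
      = ∑ j ∈ Finset.univ.erase i, k j ((0 : EuclideanSpace ℝ (Fin n)) j) := by
    refine Finset.sum_congr rfl (fun j hj => ?_)
    have hji : j ≠ i := Finset.ne_of_mem_erase hj
    simp [hji]
  rw [e] at h1
  have e1 : (EuclideanSpace.single i t : EuclideanSpace ℝ (Fin n)) i = t := by simp
  have e0 : (0 : EuclideanSpace ℝ (Fin n)) i = 0 := rfl
  rw [e1] at h1
  rw [e0] at h0
  linarith

/-- Entire separable solutions of the affine maximal equation are quadratic polynomials. -/
theorem separable_bernstein (n : ℕ) (f : Fin n → ℝ → ℝ)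
    (hf : ∀ i, ContDiff ℝ 4 (f i))
    (hpos : ∀ x : EuclideanSpace ℝ (Fin n),
      (hess (fun y : EuclideanSpace ℝ (Fin n) => ∑ i, f i (y i)) x).PosDef)
    (hAM : ∀ x : EuclideanSpace ℝ (Fin n),
      amOp (fun y : EuclideanSpace ℝ (Fin n) => ∑ i, f i (y i)) x = 0) :
    ∃ a b : Fin n → ℝ, ∃ c : ℝ, (∀ i, 0 < a i) ∧
      ∀ x : EuclideanSpace ℝ (Fin n),
        ∑ i, f i (x i) = ∑ i, (a i * x i ^ 2 + b i * x i) + c := by
  set u : EuclideanSpace ℝ (Fin n) → ℝ := fun y => ∑ i, f i (y i) with hu
  set p : Fin n → ℝ → ℝ := fun i => deriv (f i) with hp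
  set q : Fin n → ℝ → ℝ := fun i => deriv (deriv (f i)) with hq
  set e : ℝ := -((n : ℝ) + 1) / ((n : ℝ) + 2) with he_def
  have he : e ≠ 0 := by
    rw [he_def]
    have h1 : (0 : ℝ) < (n : ℝ) + 1 := by positivity
    have h2 : (0 : ℝ) < (n : ℝ) + 2 := by positivity
    exact div_ne_zero (by linarith) h2.ne'
  -- regularity
  have hp3 : ∀ i, ContDiff ℝ 3 (p i) := by
    intro i
    have h := ContDiff.iterate_deriv' 3 1 (f := f i) (by exact_mod_cast hf i)
    simpa using h
  have hq2 : ∀ i, ContDiff ℝ 2 (q i) := by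
    intro i
    have h := ContDiff.iterate_deriv' 2 1 (f := p i) (by exact_mod_cast hp3 i)
    simpa using h
  have hfd : ∀ i, Differentiable ℝ (f i) := fun i => (hf i).differentiable (by norm_num)
  have hpd : ∀ i, Differentiable ℝ (p i) := fun i => (hp3 i).differentiable (by norm_num)
  have hqd : ∀ i, Differentiable ℝ (q i) := fun i => (hq2 i).differentiable (by norm_num)
  -- the Hessian is diagonal
  have H : ∀ x, hess u x = Matrix.diagonal (fun i => q i (x i)) := fun x =>
    hess_sum f hfd hpd x
  have hqpos : ∀ i t, 0 < q i t := by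
    intro i t
    have h1 := hpos (EuclideanSpace.single i t)
    rw [H] at h1
    have h2 := h1.diag_pos (i := i)
    simpa using h2
  -- the weight is a product
  set g : Fin n → ℝ → ℝ := fun i t => q i t ^ e with hg
  have hgpos : ∀ i t, 0 < g i t := fun i t => Real.rpow_pos_of_pos (hqpos i t) e
  have hg2 : ∀ i, ContDiff ℝ 2 (g i) := fun i =>
    (hq2 i).rpow_const_of_ne (fun t => (hqpos i t).ne')
  have hgd : ∀ i, Differentiable ℝ (g i) := fun i => (hg2 i).differentiable (by norm_num)
  have hgd' : ∀ i, Differentiable ℝ (deriv (g i)) := by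
    intro i
    have h := ContDiff.iterate_deriv' 1 1 (f := g i) (by exact_mod_cast hg2 i)
    have h' : ContDiff ℝ 1 (deriv (g i)) := by simpa using h
    exact h'.differentiable (by norm_num)
  have W : amWeight u = fun y => ∏ j, g j (y j) := by
    funext y
    unfold amWeight
    rw [H y, Matrix.det_diagonal]
    exact (Real.finsetProd_rpow _ _ (fun i _ => (hqpos i (y i)).le) _).symm
  -- the equation in coordinates
  have AM : ∀ x : EuclideanSpace ℝ (Fin n),
      ∑ i, (∏ l, q l (x l)) * (q i (x i))⁻¹ * (deriv (deriv (g i)) (x i) * restProd g i x)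
        = 0 := by
    intro x
    have h := hAM x
    unfold amOp at h
    rw [W, H x] at h
    have hinv : (Matrix.diagonal (fun i => q i (x i)))⁻¹
        = Matrix.diagonal (fun i => (q i (x i))⁻¹) := by
      apply Matrix.inv_eq_right_inv
      rw [Matrix.diagonal_mul_diagonal]
      have e1 : (fun i => q i (x i) * (q i (x i))⁻¹) = fun _ => (1 : ℝ) :=
        funext fun i => mul_inv_cancel₀ (hqpos i (x i)).ne'
      rw [e1, Matrix.diagonal_one]
    rw [hinv, Matrix.det_diagonal] at h
    rw [← h]
    refine Finset.sum_congr rfl (fun i _ => ?_)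
    rw [Finset.sum_eq_single i]
    · rw [hess_prod_diag g hgd hgd' x i]
      simp [Matrix.smul_apply]
    · intro j _ hji
      simp [Matrix.smul_apply, Matrix.diagonal_apply_ne _ (Ne.symm hji)]
    · intro h'
      exact absurd (Finset.mem_univ i) h'
  -- division by the positive product
  set k : Fin n → ℝ → ℝ := fun i t => deriv (deriv (g i)) t / (q i t * g i t) with hk
  have hhpos : ∀ i t, 0 < q i t * g i t := fun i t => mul_pos (hqpos i t) (hgpos i t)
  have K : ∀ x : EuclideanSpace ℝ (Fin n), ∑ i, k i (x i) = 0 := by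
    intro x
    have hH : 0 < ∏ l, (q l (x l) * g l (x l)) := Finset.prod_pos (fun l _ => hhpos l (x l))
    have h1 : (∑ i, k i (x i)) * ∏ l, (q l (x l) * g l (x l)) = 0 := by
      rw [Finset.sum_mul, ← AM x]
      refine Finset.sum_congr rfl (fun i _ => ?_)
      have e1 : ∏ l, (q l (x l) * g l (x l)) = (q i (x i) * g i (x i)) *
          ∏ l ∈ Finset.univ.erase i, (q l (x l) * g l (x l)) :=
        (Finset.mul_prod_erase Finset.univ (fun l => q l (x l) * g l (x l))
          (Finset.mem_univ i)).symm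
      have e2 : ∏ l, q l (x l) = q i (x i) * ∏ l ∈ Finset.univ.erase i, q l (x l) :=
        (Finset.mul_prod_erase Finset.univ (fun l => q l (x l)) (Finset.mem_univ i)).symm
      rw [e1, e2, Finset.prod_mul_distrib]
      unfold restProd
      have hq0 := (hqpos i (x i)).ne'
      have hg0 := (hgpos i (x i)).ne'
      rw [hk]
      field_simp
    exact (mul_eq_zero.1 h1).resolve_right hH.ne'
  -- separation of variables
  have Kc : ∀ i t, k i t = k i 0 := fun i t => separate k K i t
  have hsum : ∑ i, k i 0 = 0 := by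
    have h0 := K 0
    simpa using h0
  have hgdd : ∀ i t, deriv (deriv (g i)) t = k i 0 * (q i t * g i t) := by
    intro i t
    have h1 := Kc i t
    rw [hk] at h1
    simp only at h1
    rw [div_eq_iff (hhpos i t).ne'] at h1
    rw [h1]
  have hnonpos : ∀ i, k i 0 ≤ 0 → k i 0 = 0 := by
    intro i hi
    have h2 : ∀ t, deriv (deriv (g i)) t ≤ 0 := by
      intro t
      rw [hgdd i t]
      exact mul_nonpos_of_nonpos_of_nonneg hi (hhpos i t).le
    have h3 := deriv_eq_zero_of_pos_of_deriv2_nonpos (g i) (hgd i) (hgd' i) (hgpos i) h2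
    have h4 : deriv (g i) = fun _ => (0 : ℝ) := funext h3
    have h5 : deriv (deriv (g i)) 0 = 0 := by
      rw [h4]
      simp
    rw [hgdd i 0] at h5
    exact (mul_eq_zero.1 h5).resolve_right (hhpos i 0).ne'
  have hnonneg : ∀ i, 0 ≤ k i 0 := by
    intro i
    by_contra hneg
    have hlt : k i 0 < 0 := lt_of_not_ge hneg
    have := hnonpos i hlt.le
    linarith
  have hzero : ∀ i, k i 0 = 0 := fun i =>
    (Finset.sum_eq_zero_iff_of_nonneg (fun j _ => hnonneg j)).1 hsum i (Finset.mem_univ i)
  -- every g i is constant, hence every q i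
  have hqconst : ∀ i t, q i t = q i 0 := by
    intro i t
    have h2 : ∀ s, deriv (deriv (g i)) s ≤ 0 := by
      intro s
      rw [hgdd i s, hzero i, zero_mul]
    have h3 := deriv_eq_zero_of_pos_of_deriv2_nonpos (g i) (hgd i) (hgd' i) (hgpos i) h2
    have h4 : g i t = g i 0 := is_const_of_deriv_eq_zero (hgd i) h3 t 0
    exact Real.rpow_left_injOn he (hqpos i t).le (hqpos i 0).le h4
  -- two integrations
  have hpform : ∀ i t, p i t = p i 0 + q i 0 * t := by
    intro i t
    have hd : Differentiable ℝ (fun s : ℝ => p i s - q i 0 * s) :=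
      (hpd i).sub (differentiable_id.const_mul _)
    have hz : ∀ s, deriv (fun s : ℝ => p i s - q i 0 * s) s = 0 := by
      intro s
      have h1 : HasDerivAt (fun s : ℝ => p i s - q i 0 * s) (q i s - q i 0 * 1) s :=
        ((hpd i) s).hasDerivAt.sub ((hasDerivAt_id s).const_mul (q i 0))
      rw [h1.deriv, hqconst i s]
      ring
    have h : p i t - q i 0 * t = p i 0 - q i 0 * 0 := is_const_of_deriv_eq_zero hd hz t 0
    linarith
  have hfform : ∀ i t, f i t = f i 0 + p i 0 * t + q i 0 / 2 * t ^ 2 := by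
    intro i t
    have hd : Differentiable ℝ (fun s : ℝ => f i s - p i 0 * s - q i 0 / 2 * s ^ 2) :=
      ((hfd i).sub (differentiable_id.const_mul _)).sub
        ((differentiable_id.pow 2).const_mul _)
    have hz : ∀ s, deriv (fun s : ℝ => f i s - p i 0 * s - q i 0 / 2 * s ^ 2) s = 0 := by
      intro s
      have h1 : HasDerivAt (fun s : ℝ => f i s - p i 0 * s - q i 0 / 2 * s ^ 2)
          (p i s - p i 0 * 1 - q i 0 / 2 * (2 * s ^ 1 * 1)) s :=
        (((hfd i) s).hasDerivAt.sub ((hasDerivAt_id s).const_mul (p i 0))).sub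
          (((hasDerivAt_id s).pow 2).const_mul (q i 0 / 2))
      rw [h1.deriv, hpform i s]
      ring
    have h : f i t - p i 0 * t - q i 0 / 2 * t ^ 2 = f i 0 - p i 0 * 0 - q i 0 / 2 * 0 ^ 2 :=
      is_const_of_deriv_eq_zero hd hz t 0
    have h0 : f i 0 - p i 0 * 0 - q i 0 / 2 * 0 ^ 2 = f i 0 := by ring
    rw [h0] at h
    linarith
  refine ⟨fun i => q i 0 / 2, fun i => p i 0, ∑ i, f i 0, fun i => by
    have := hqpos i 0
    positivity, fun x => ?_⟩
  rw [← Finset.sum_add_distrib]
  refine Finset.sum_congr rfl (fun i _ => ?_)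
  rw [hfform i (x i)]
  ring

end Vale.Agent.Lib.P252.Sep
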