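import Vale.Agent.Lib.P252.helper24.Separable

/-!
# P252 (helper24): separable solutions of the affine maximal equation over a box

If `u(x) = f_1(x_1) + ... + f_n(x_n)` on a product of nonempty open intervals has positive
definite Hessian, solves the affine maximal equation and has a closed graph, then the box is
all of `R^n` and `u` is a quadratic polynomial.
-/

namespace Vale.Agent.Lib.P252.SepBox

open Vale.Agent.Lib.P252 Vale.Agent.Lib.P252.Sep
open Set

/-- A function whose derivative is nonpositive on a half-open interval is antitone there. -/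
lemma antitoneOn_Ico (Φ1 : ℝ → ℝ) (t0 b : ℝ)
    (h2 : ∀ t ∈ Ico t0 b, ∃ d : ℝ, d ≤ 0 ∧ HasDerivAt Φ1 d t) : AntitoneOn Φ1 (Ico t0 b) := by
  refine antitoneOn_of_deriv_nonpos (convex_Ico t0 b) ?_ ?_ ?_
  · intro t ht
    obtain ⟨d, _, hd⟩ := h2 t ht
    exact hd.continuousAt.continuousWithinAt
  · intro t ht
    have ht' : t ∈ Ico t0 b := interior_subset ht
    obtain ⟨d, _, hd⟩ := h2 t ht'
    exact hd.differentiableAt.differentiableWithinAt
  · intro t ht
    have ht' : t ∈ Ico t0 b := interior_subset ht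
    obtain ⟨d, hd0, hd⟩ := h2 t ht'
    rw [hd.deriv]
    exact hd0

/-- A function with nonpositive second derivative lies below its tangent at the left end. -/
lemma tangent_bound (Φ Φ1 : ℝ → ℝ) (t0 b : ℝ)
    (h1 : ∀ t ∈ Ico t0 b, HasDerivAt Φ (Φ1 t) t)
    (h2 : ∀ t ∈ Ico t0 b, ∃ d : ℝ, d ≤ 0 ∧ HasDerivAt Φ1 d t) :
    ∀ t ∈ Ico t0 b, Φ t ≤ Φ t0 + Φ1 t0 * (t - t0) := by
  have hanti := antitoneOn_Ico Φ1 t0 b h2
  intro t ht
  rcases eq_or_lt_of_le ht.1 with h | h
  · rw [← h]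
    simp
  · have hcont : ContinuousOn Φ (Icc t0 t) := fun s hs =>
      (h1 s ⟨hs.1, lt_of_le_of_lt hs.2 ht.2⟩).continuousAt.continuousWithinAt
    obtain ⟨ξ, hξ, hξe⟩ := exists_hasDerivAt_eq_slope Φ Φ1 h hcont
      (fun s hs => h1 s ⟨hs.1.le, lt_trans hs.2 ht.2⟩)
    have hle : Φ1 ξ ≤ Φ1 t0 :=
      hanti ⟨le_refl t0, lt_of_le_of_lt ht.1 ht.2⟩ ⟨hξ.1.le, lt_trans hξ.2 ht.2⟩ hξ.1.le
    have hpos : 0 < t - t0 := by linarith
    rw [hξe, div_le_iff₀ hpos] at hle
    linarith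

/-- A positive function with nonpositive second derivative on `[t0, b)` is bounded below by a
positive multiple of the distance to `b`. -/
lemma concave_lower (G G1 : ℝ → ℝ) (t0 b : ℝ) (htb : t0 < b)
    (h1 : ∀ t ∈ Ico t0 b, HasDerivAt G (G1 t) t)
    (h2 : ∀ t ∈ Ico t0 b, ∃ d : ℝ, d ≤ 0 ∧ HasDerivAt G1 d t)
    (hpos : ∀ t ∈ Ico t0 b, 0 < G t) :
    ∀ t ∈ Ico t0 b, G t0 / (2 * (b - t0)) * (b - t) ≤ G t := by
  have hanti := antitoneOn_Ico G1 t0 b h2
  have hb0 : 0 < b - t0 := by linarith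
  have hG0 := hpos t0 ⟨le_refl _, htb⟩
  intro t ht
  have hGt := hpos t ht
  rw [div_mul_eq_mul_div, div_le_iff₀ (by positivity)]
  rcases eq_or_lt_of_le ht.1 with h | h
  · rw [← h]
    nlinarith
  · have hts : t < (t + b) / 2 := by linarith [ht.2]
    have hsb : (t + b) / 2 < b := by linarith [ht.2]
    have hGs := hpos ((t + b) / 2) ⟨by linarith, hsb⟩
    have hc1 : ContinuousOn G (Icc t0 t) := fun s hs =>
      (h1 s ⟨hs.1, lt_of_le_of_lt hs.2 ht.2⟩).continuousAt.continuousWithinAt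
    have hc2 : ContinuousOn G (Icc t ((t + b) / 2)) := fun s hs =>
      (h1 s ⟨le_trans ht.1 hs.1, lt_of_le_of_lt hs.2 hsb⟩).continuousAt.continuousWithinAt
    obtain ⟨ξ1, hξ1, e1⟩ := exists_hasDerivAt_eq_slope G G1 h hc1
      (fun s hs => h1 s ⟨hs.1.le, lt_trans hs.2 ht.2⟩)
    obtain ⟨ξ2, hξ2, e2⟩ := exists_hasDerivAt_eq_slope G G1 hts hc2
      (fun s hs => h1 s ⟨le_trans ht.1 hs.1.le, lt_trans hs.2 hsb⟩)
    have hle : G1 ξ2 ≤ G1 ξ1 :=
      hanti ⟨hξ1.1.le, lt_trans hξ1.2 ht.2⟩ ⟨le_trans ht.1 hξ2.1.le, lt_trans hξ2.2 hsb⟩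
        (le_of_lt (lt_trans hξ1.2 hξ2.1))
    rw [e1, e2, div_le_div_iff₀ (by linarith) (by linarith)] at hle
    nlinarith

/-- The boundedness lemma at a finite right end point: if `G > 0` has nonpositive second
derivative on `[t0, b)` and the second derivative of `F` is `G ^ (-α)` with `1 < α < 2`, then
`F` is bounded on `[t0, b)`. -/
lemma bounded_near_end (F F1 F2 G G1 : ℝ → ℝ) (α : ℝ) (hα1 : 1 < α) (hα2 : α < 2)
    (t0 b : ℝ) (htb : t0 < b)
    (hF : ∀ t ∈ Ico t0 b, HasDerivAt F (F1 t) t)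
    (hF1 : ∀ t ∈ Ico t0 b, HasDerivAt F1 (F2 t) t)
    (hG : ∀ t ∈ Ico t0 b, HasDerivAt G (G1 t) t)
    (hG1 : ∀ t ∈ Ico t0 b, ∃ d : ℝ, d ≤ 0 ∧ HasDerivAt G1 d t)
    (hGpos : ∀ t ∈ Ico t0 b, 0 < G t)
    (hFG : ∀ t ∈ Ico t0 b, F2 t = G t ^ (-α)) :
    ∃ M : ℝ, ∀ t ∈ Ico t0 b, |F t| ≤ M := by
  have hb0 : 0 < b - t0 := by linarith
  have hG0 := hGpos t0 ⟨le_refl _, htb⟩
  set m : ℝ := G t0 / (2 * (b - t0)) with hm
  have hmpos : 0 < m := by positivity
  have hlow := concave_lower G G1 t0 b htb hG hG1 hGpos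
  have hF2le : ∀ t ∈ Ico t0 b, F2 t ≤ (m * (b - t)) ^ (-α) := by
    intro t ht
    rw [hFG t ht]
    have hbt : 0 < b - t := by linarith [ht.2]
    exact Real.rpow_le_rpow_of_nonpos (mul_pos hmpos hbt) (hlow t ht) (by linarith)
  set κ : ℝ := m ^ (-α) / ((2 - α) * (α - 1)) with hκ
  have hden : 0 < (2 - α) * (α - 1) := mul_pos (by linarith) (by linarith)
  have hκpos : 0 < κ := div_pos (Real.rpow_pos_of_pos hmpos _) hden
  set Ψ : ℝ → ℝ := fun t => -κ * (b - t) ^ (2 - α) with hΨ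
  set Ψ1 : ℝ → ℝ := fun t => κ * (2 - α) * (b - t) ^ (1 - α) with hΨ1
  have hlin : ∀ t : ℝ, HasDerivAt (fun s : ℝ => b - s) (-1) t := fun t => by
    simpa using (hasDerivAt_id t).const_sub b
  have hΨd : ∀ t ∈ Ico t0 b, HasDerivAt Ψ (Ψ1 t) t := by
    intro t ht
    have hbt : b - t ≠ 0 := by linarith [ht.2]
    have h1 := ((hlin t).rpow_const (p := 2 - α) (Or.inl hbt)).const_mul (-κ)
    refine h1.congr_deriv ?_
    rw [hΨ1]
    have e : (2 : ℝ) - α - 1 = 1 - α := by ring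
    simp only [e]
    ring
  have hΨ1d : ∀ t ∈ Ico t0 b, HasDerivAt Ψ1 ((m * (b - t)) ^ (-α)) t := by
    intro t ht
    have hbt : b - t ≠ 0 := by linarith [ht.2]
    have hbt' : 0 ≤ b - t := by linarith [ht.2]
    have h1 := ((hlin t).rpow_const (p := 1 - α) (Or.inl hbt)).const_mul (κ * (2 - α))
    refine h1.congr_deriv ?_
    have e : (1 : ℝ) - α - 1 = -α := by ring
    simp only [e]
    rw [Real.mul_rpow hmpos.le hbt', hκ]
    have h2a : (2 : ℝ) - α ≠ 0 := by linarith
    have ha1 : α - 1 ≠ 0 := by linarith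
    field_simp
    ring
  have hΦ := tangent_bound (fun t => F t - Ψ t) (fun t => F1 t - Ψ1 t) t0 b
    (fun t ht => (hF t ht).sub (hΨd t ht))
    (fun t ht => ⟨F2 t - (m * (b - t)) ^ (-α), by linarith [hF2le t ht],
      (hF1 t ht).sub (hΨ1d t ht)⟩)
  have hneg := tangent_bound (fun t => -F t) (fun t => -F1 t) t0 b
    (fun t ht => (hF t ht).neg)
    (fun t ht => ⟨-F2 t, by
      rw [hFG t ht]
      have := Real.rpow_pos_of_pos (hGpos t ht) (-α)
      linarith, (hF1 t ht).neg⟩)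
  have hΨle : ∀ t ∈ Ico t0 b, Ψ t ≤ 0 := by
    intro t ht
    have hbt' : 0 ≤ b - t := by linarith [ht.2]
    have := Real.rpow_nonneg hbt' (2 - α)
    rw [hΨ]
    simp only
    nlinarith
  refine ⟨|F t0 - Ψ t0| + |F1 t0 - Ψ1 t0| * (b - t0) + |F t0| + |F1 t0| * (b - t0), ?_⟩
  intro t ht
  have h1 := hΦ t ht
  have h2 := hneg t ht
  have h3 := hΨle t ht
  have ht0 : 0 ≤ t - t0 := by linarith [ht.1]
  have htb' : t - t0 ≤ b - t0 := by linarith [ht.2]
  have a1 := le_abs_self (F t0 - Ψ t0)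
  have a2 : (F1 t0 - Ψ1 t0) * (t - t0) ≤ |F1 t0 - Ψ1 t0| * (b - t0) :=
    le_trans (mul_le_mul_of_nonneg_right (le_abs_self _) ht0)
      (mul_le_mul_of_nonneg_left htb' (abs_nonneg _))
  have a3 := neg_abs_le (F t0)
  have a4 : -(|F1 t0| * (b - t0)) ≤ F1 t0 * (t - t0) := by
    have h5 : -(|F1 t0| * (t - t0)) ≤ F1 t0 * (t - t0) := by
      have := neg_abs_le (F1 t0)
      nlinarith
    have h6 : |F1 t0| * (t - t0) ≤ |F1 t0| * (b - t0) :=
      mul_le_mul_of_nonneg_left htb' (abs_nonneg _)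
    linarith
  have a5 := abs_nonneg (F t0 - Ψ t0)
  have a6 := abs_nonneg (F t0)
  have a7 : 0 ≤ |F1 t0 - Ψ1 t0| * (b - t0) := mul_nonneg (abs_nonneg _) hb0.le
  have a8 : 0 ≤ |F1 t0| * (b - t0) := mul_nonneg (abs_nonneg _) hb0.le
  rw [abs_le]
  constructor
  · linarith
  · linarith

variable {n : ℕ}

lemma hess_congr' {u v : EuclideanSpace ℝ (Fin n) → ℝ} {x : EuclideanSpace ℝ (Fin n)}
    (h : u =ᶠ[nhds x] v) : hess u x = hess v x := by
  funext i j
  unfold hess
  have h1 : (fun y => fderiv ℝ u y (EuclideanSpace.single i 1))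
      =ᶠ[nhds x] (fun y => fderiv ℝ v y (EuclideanSpace.single i 1)) := by
    filter_upwards [h.fderiv (𝕜 := ℝ)] with y hy
    rw [hy]
  rw [h1.fderiv_eq]

/-- The point with coordinates `c`, except for the value `t` at the index `i`. -/
noncomputable def pt (c : Fin n → ℝ) (i : Fin n) (t : ℝ) : EuclideanSpace ℝ (Fin n) :=
  WithLp.toLp 2 (Function.update c i t)

lemma pt_self (c : Fin n → ℝ) (i : Fin n) (t : ℝ) : pt c i t i = t := by
  simp [pt]

lemma pt_ne (c : Fin n → ℝ) (i : Fin n) (t : ℝ) {j : Fin n} (h : j ≠ i) : pt c i t j = c j := by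
  simp [pt, h]

lemma continuous_pt (c : Fin n → ℝ) (i : Fin n) : Continuous (fun t : ℝ => pt c i t) := by
  unfold pt
  exact (PiLp.continuous_toLp 2 _).comp (continuous_const.update i continuous_id)

lemma pt_mem (I : Fin n → Set ℝ) (c : Fin n → ℝ) (hc : ∀ j, c j ∈ I j) (i : Fin n) (t : ℝ)
    (ht : t ∈ I i) : ∀ j, pt c i t j ∈ I j := by
  intro j
  by_cases hji : j = i
  · subst hji
    rw [pt_self]
    exact ht
  · rw [pt_ne c i t hji]
    exact hc j

lemma isOpen_box (I : Fin n → Set ℝ) (hI : ∀ i, IsOpen (I i)) :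
    IsOpen {x : EuclideanSpace ℝ (Fin n) | ∀ i, x i ∈ I i} := by
  have e : {x : EuclideanSpace ℝ (Fin n) | ∀ i, x i ∈ I i}
      = ⋂ i, (fun x : EuclideanSpace ℝ (Fin n) => x i) ⁻¹' I i := by
    ext x
    simp
  rw [e]
  exact isOpen_iInter_of_finite (fun i => (hI i).preimage
    ((EuclideanSpace.proj i : EuclideanSpace ℝ (Fin n) →L[ℝ] ℝ).continuous))

lemma fderiv_sum_single_at (f : Fin n → ℝ → ℝ) (y : EuclideanSpace ℝ (Fin n))
    (hf : ∀ j, DifferentiableAt ℝ (f j) (y j)) (i : Fin n) :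
    fderiv ℝ (fun z : EuclideanSpace ℝ (Fin n) => ∑ j, f j (z j)) y (EuclideanSpace.single i 1)
      = deriv (f i) (y i) := by
  have h : HasFDerivAt (fun z : EuclideanSpace ℝ (Fin n) => ∑ j, f j (z j))
      (∑ j, deriv (f j) (y j) • (EuclideanSpace.proj j : EuclideanSpace ℝ (Fin n) →L[ℝ] ℝ)) y :=
    HasFDerivAt.fun_sum (fun j _ => hasFDerivAt_coord (f j) _ y j (hf j).hasDerivAt)
  rw [h.fderiv]
  simp

lemma hess_sum_at (f : Fin n → ℝ → ℝ) (x : EuclideanSpace ℝ (Fin n))
    (hf : ∀ᶠ y in nhds x, ∀ j, DifferentiableAt ℝ (f j) (y j))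
    (hf' : ∀ j, DifferentiableAt ℝ (deriv (f j)) (x j)) :
    hess (fun y : EuclideanSpace ℝ (Fin n) => ∑ j, f j (y j)) x
      = Matrix.diagonal (fun i => deriv (deriv (f i)) (x i)) := by
  funext i j
  unfold hess
  have e : (fun y : EuclideanSpace ℝ (Fin n) =>
      fderiv ℝ (fun z : EuclideanSpace ℝ (Fin n) => ∑ j, f j (z j)) y
        (EuclideanSpace.single i 1))
      =ᶠ[nhds x] fun y => deriv (f i) (y i) := by
    filter_upwards [hf] with y hy
    exact fderiv_sum_single_at f y hy i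
  rw [e.fderiv_eq, fderiv_coord_single (deriv (f i)) _ x i j (hf' i).hasDerivAt]
  by_cases hij : i = j
  · subst hij
    simp
  · simp [hij]

lemma differentiableAt_restProd_at (g : Fin n → ℝ → ℝ) (i : Fin n)
    (y : EuclideanSpace ℝ (Fin n)) (hg : ∀ j, DifferentiableAt ℝ (g j) (y j)) :
    DifferentiableAt ℝ (restProd g i) y := by
  have h := HasFDerivAt.finsetProd (u := Finset.univ.erase i) (x := y)
    (g := fun j (z : EuclideanSpace ℝ (Fin n)) => g j (z j))
    (fun j _ => hasFDerivAt_coord (g j) _ y j (hg j).hasDerivAt)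
  exact h.differentiableAt

lemma hess_prod_diag_at (g : Fin n → ℝ → ℝ) (x : EuclideanSpace ℝ (Fin n)) (i : Fin n)
    (hg : ∀ᶠ y in nhds x, ∀ j, DifferentiableAt ℝ (g j) (y j))
    (hg' : DifferentiableAt ℝ (deriv (g i)) (x i)) :
    hess (fun y : EuclideanSpace ℝ (Fin n) => ∏ j, g j (y j)) x i i
      = deriv (deriv (g i)) (x i) * restProd g i x := by
  unfold hess
  have h1 : ∀ y : EuclideanSpace ℝ (Fin n), (∀ j, DifferentiableAt ℝ (g j) (y j)) →
      fderiv ℝ (fun z : EuclideanSpace ℝ (Fin n) => ∏ j, g j (z j)) y (EuclideanSpace.single i 1)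
        = deriv (g i) (y i) * restProd g i y := by
    intro y hy
    have e : (fun z : EuclideanSpace ℝ (Fin n) => ∏ j, g j (z j))
        = fun z => g i (z i) * restProd g i z := funext (prod_eq_mul_restProd g i)
    rw [e]
    exact fderiv_coord_mul (g i) _ (restProd g i) y i (hy i).hasDerivAt
      (differentiableAt_restProd_at g i y hy)
      (fderiv_eq_zero_of_line_const _ _ _ (differentiableAt_restProd_at g i y hy)
        (restProd_line g i y))
  have e2 : (fun y : EuclideanSpace ℝ (Fin n) =>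
      fderiv ℝ (fun z : EuclideanSpace ℝ (Fin n) => ∏ j, g j (z j)) y
        (EuclideanSpace.single i 1))
      =ᶠ[nhds x] fun y => deriv (g i) (y i) * restProd g i y := by
    filter_upwards [hg] with y hy
    exact h1 y hy
  rw [e2.fderiv_eq]
  have hx := hg.self_of_nhds
  exact fderiv_coord_mul (deriv (g i)) _ (restProd g i) x i hg'.hasDerivAt
    (differentiableAt_restProd_at g i x hx)
    (fderiv_eq_zero_of_line_const _ _ _ (differentiableAt_restProd_at g i x hx)
      (restProd_line g i x))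

/-- Separation of variables on a box. -/
lemma separate_box (I : Fin n → Set ℝ) (k : Fin n → ℝ → ℝ) (c : Fin n → ℝ)
    (hc : ∀ i, c i ∈ I i)
    (hk : ∀ x : EuclideanSpace ℝ (Fin n), (∀ i, x i ∈ I i) → ∑ i, k i (x i) = 0)
    (i : Fin n) (t : ℝ) (ht : t ∈ I i) : k i t = k i (c i) := by
  have h1 := hk (pt c i t) (pt_mem I c hc i t ht)
  have h0 := hk (pt c i (c i)) (pt_mem I c hc i (c i) (hc i))
  rw [← Finset.add_sum_erase _ _ (Finset.mem_univ i)] at h1 h0
  have e : ∑ j ∈ Finset.univ.erase i, k j (pt c i t j)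
      = ∑ j ∈ Finset.univ.erase i, k j (pt c i (c i) j) := by
    refine Finset.sum_congr rfl (fun j hj => ?_)
    rw [pt_ne c i t (Finset.ne_of_mem_erase hj), pt_ne c i (c i) (Finset.ne_of_mem_erase hj)]
  rw [e, pt_self] at h1
  rw [pt_self] at h0
  linarith

/-- If the graph is closed, a sequence in the `i`-th interval along which `f i` stays bounded
has its limit in the interval. -/
lemma mem_of_closed (I : Fin n → Set ℝ) (f : Fin n → ℝ → ℝ) (c : Fin n → ℝ)
    (hc : ∀ j, c j ∈ I j)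
    (hclosed : IsClosed {p : EuclideanSpace ℝ (Fin n) × ℝ |
      (∀ j, p.1 j ∈ I j) ∧ p.2 = ∑ j, f j (p.1 j)})
    (i : Fin n) (b : ℝ) (s : ℕ → ℝ) (hs : ∀ k, s k ∈ I i)
    (hsb : Filter.Tendsto s Filter.atTop (nhds b)) (M : ℝ) (hM : ∀ k, |f i (s k)| ≤ M) :
    b ∈ I i := by
  set R : ℝ := ∑ j ∈ Finset.univ.erase i, f j (c j) with hR
  have hu : ∀ k, ∑ j, f j (pt c i (s k) j) = f i (s k) + R := by
    intro k
    rw [← Finset.add_sum_erase _ _ (Finset.mem_univ i), pt_self]
    congr 1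
    refine Finset.sum_congr rfl (fun j hj => ?_)
    rw [pt_ne c i (s k) (Finset.ne_of_mem_erase hj)]
  have hbdd : ∀ k, f i (s k) + R ∈ Icc (-M + R) (M + R) := by
    intro k
    have h := abs_le.1 (hM k)
    exact ⟨by linarith [h.1], by linarith [h.2]⟩
  obtain ⟨l, _, φ, hφ, hl⟩ :=
    tendsto_subseq_of_bounded (Metric.isBounded_Icc (-M + R) (M + R)) hbdd
  have hx : Filter.Tendsto (fun k => pt c i (s (φ k))) Filter.atTop (nhds (pt c i b)) :=
    ((continuous_pt c i).tendsto b).comp (hsb.comp hφ.tendsto_atTop)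
  have hp : Filter.Tendsto
      (fun k => ((pt c i (s (φ k)), f i (s (φ k)) + R) : EuclideanSpace ℝ (Fin n) × ℝ))
      Filter.atTop (nhds (pt c i b, l)) := hx.prodMk_nhds hl
  have hmem : ∀ k, ((pt c i (s (φ k)), f i (s (φ k)) + R) : EuclideanSpace ℝ (Fin n) × ℝ)
      ∈ {p : EuclideanSpace ℝ (Fin n) × ℝ | (∀ j, p.1 j ∈ I j) ∧ p.2 = ∑ j, f j (p.1 j)} :=
    fun k => ⟨pt_mem I c hc i (s (φ k)) (hs (φ k)), (hu (φ k)).symm⟩
  have hlim := hclosed.mem_of_tendsto hp (Filter.Eventually.of_forall hmem)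
  have h2 := hlim.1 i
  simp only at h2
  rwa [pt_self] at h2

/-- The finite right end of an open order-connected set, with a sequence converging to it. -/
lemma right_end_seq (J : Set ℝ) (hJo : IsOpen J) (hJc : J.OrdConnected) (t0 b : ℝ)
    (ht0 : t0 ∈ J) (hb : b ∉ J) (hlt : t0 < b) :
    ∃ B : ℝ, B ∉ J ∧ t0 < B ∧ Ico t0 B ⊆ J ∧
      ∃ s : ℕ → ℝ, (∀ k, s k ∈ Ico t0 B) ∧ Filter.Tendsto s Filter.atTop (nhds B) := by
  have hbdd : BddAbove J := by
    refine ⟨b, fun s hs => ?_⟩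
    by_contra hcon
    exact hb (hJc.out ht0 hs ⟨hlt.le, (lt_of_not_ge hcon).le⟩)
  have hne : J.Nonempty := ⟨t0, ht0⟩
  set B : ℝ := sSup J with hB
  have hBn : B ∉ J := by
    intro hBJ
    obtain ⟨ε, hε, hball⟩ := Metric.isOpen_iff.1 hJo B hBJ
    have h1 : B + ε / 2 ∈ J := by
      apply hball
      rw [Metric.mem_ball, Real.dist_eq]
      have : B + ε / 2 - B = ε / 2 := by ring
      rw [this, abs_of_pos (by linarith)]
      linarith
    have h2 := le_csSup hbdd h1
    linarith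
  have ht0B : t0 < B := lt_of_le_of_ne (le_csSup hbdd ht0) (fun h => hBn (h ▸ ht0))
  have hsub : Ico t0 B ⊆ J := by
    intro t ht
    obtain ⟨s, hs, hts⟩ := exists_lt_of_lt_csSup hne ht.2
    exact hJc.out ht0 hs ⟨ht.1, hts.le⟩
  refine ⟨B, hBn, ht0B, hsub, fun k => B - (B - t0) * (1 / ((k : ℝ) + 1)), ?_, ?_⟩
  · intro k
    have hk : (0 : ℝ) < (k : ℝ) + 1 := by positivity
    have h1 : 0 < 1 / ((k : ℝ) + 1) := by positivity
    have h2 : 1 / ((k : ℝ) + 1) ≤ 1 := by
      rw [div_le_one hk]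
      have : (0 : ℝ) ≤ (k : ℝ) := Nat.cast_nonneg k
      linarith
    have h3 : 0 < B - t0 := by linarith
    constructor
    · nlinarith
    · nlinarith
  · have h := (tendsto_one_div_add_atTop_nhds_zero_nat (𝕜 := ℝ)).const_mul (B - t0)
    have h' := h.const_sub B
    simpa using h'

lemma hasDerivAt_comp_neg' (F : ℝ → ℝ) (F' : ℝ) (t : ℝ) (h : HasDerivAt F F' (-t)) :
    HasDerivAt (fun s : ℝ => F (-s)) (-F') t := by
  have h1 : HasDerivAt (fun s : ℝ => -s) (-1) t := hasDerivAt_neg t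
  have h2 := HasDerivAt.comp t h h1
  have e : F' * -1 = -F' := by ring
  rw [e] at h2
  exact h2

/-- Separable solutions of the affine maximal equation over a box with a closed graph: the box
is the whole space and the solution is a quadratic polynomial. -/
theorem separable_complete (n : ℕ) (I : Fin n → Set ℝ)
    (hIo : ∀ i, IsOpen (I i)) (hIc : ∀ i, (I i).OrdConnected) (hIne : ∀ i, (I i).Nonempty)
    (f : Fin n → ℝ → ℝ) (hf : ∀ i, ContDiffOn ℝ 4 (f i) (I i))
    (hpos : ∀ x : EuclideanSpace ℝ (Fin n), (∀ i, x i ∈ I i) →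
      (hess (fun y : EuclideanSpace ℝ (Fin n) => ∑ i, f i (y i)) x).PosDef)
    (hAM : ∀ x : EuclideanSpace ℝ (Fin n), (∀ i, x i ∈ I i) →
      amOp (fun y : EuclideanSpace ℝ (Fin n) => ∑ i, f i (y i)) x = 0)
    (hclosed : IsClosed {p : EuclideanSpace ℝ (Fin n) × ℝ |
      (∀ i, p.1 i ∈ I i) ∧ p.2 = ∑ i, f i (p.1 i)}) :
    (∀ i, I i = Set.univ) ∧ ∃ a b : Fin n → ℝ, ∃ c : ℝ, (∀ i, 0 < a i) ∧
      ∀ x : EuclideanSpace ℝ (Fin n),
        ∑ i, f i (x i) = ∑ i, (a i * x i ^ 2 + b i * x i) + c := by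
  set u : EuclideanSpace ℝ (Fin n) → ℝ := fun y => ∑ i, f i (y i) with hu
  set p : Fin n → ℝ → ℝ := fun i => deriv (f i) with hp
  set q : Fin n → ℝ → ℝ := fun i => deriv (deriv (f i)) with hq
  set e : ℝ := -((n : ℝ) + 1) / ((n : ℝ) + 2) with he_def
  have hn1 : (0 : ℝ) < (n : ℝ) + 1 := by positivity
  have hn2 : (0 : ℝ) < (n : ℝ) + 2 := by positivity
  have he : e ≠ 0 := by
    rw [he_def]
    exact div_ne_zero (by linarith) hn2.ne'
  set α : ℝ := ((n : ℝ) + 2) / ((n : ℝ) + 1) with hα_def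
  have heinv : e⁻¹ = -α := by
    rw [he_def, hα_def]
    field_simp
  have hα1 : 1 < α := by
    rw [hα_def, lt_div_iff₀ hn1]
    linarith
  -- base point
  set c0 : Fin n → ℝ := fun i => (hIne i).some with hc0_def
  have hc0 : ∀ i, c0 i ∈ I i := fun i => (hIne i).some_mem
  -- regularity at the points of the intervals
  have hfat : ∀ i, ∀ t ∈ I i, ContDiffAt ℝ 4 (f i) t := fun i t ht =>
    (hf i).contDiffAt ((hIo i).mem_nhds ht)
  have hp3 : ∀ i, ∀ t ∈ I i, ContDiffAt ℝ 3 (p i) t := fun i t ht =>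
    (hfat i t ht).derivWithin (by norm_num)
  have hq2 : ∀ i, ∀ t ∈ I i, ContDiffAt ℝ 2 (q i) t := fun i t ht =>
    (hp3 i t ht).derivWithin (by norm_num)
  have hfd : ∀ i, ∀ t ∈ I i, DifferentiableAt ℝ (f i) t := fun i t ht =>
    (hfat i t ht).differentiableAt (by norm_num)
  have hpd : ∀ i, ∀ t ∈ I i, DifferentiableAt ℝ (p i) t := fun i t ht =>
    (hp3 i t ht).differentiableAt (by norm_num)
  have hΩ := isOpen_box I hIo
  have hnear : ∀ x : EuclideanSpace ℝ (Fin n), (∀ i, x i ∈ I i) →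
      ∀ᶠ y in nhds x, ∀ j, y j ∈ I j := fun x hx => hΩ.mem_nhds hx
  -- the Hessian is diagonal on the box
  have H : ∀ x : EuclideanSpace ℝ (Fin n), (∀ i, x i ∈ I i) →
      hess u x = Matrix.diagonal (fun i => q i (x i)) := by
    intro x hx
    refine hess_sum_at f x ?_ (fun j => hpd j (x j) (hx j))
    filter_upwards [hnear x hx] with y hy
    exact fun j => hfd j (y j) (hy j)
  have hqpos : ∀ i, ∀ t ∈ I i, 0 < q i t := by
    intro i t ht
    have hmem := pt_mem I c0 hc0 i t ht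
    have h1 := hpos (pt c0 i t) hmem
    rw [H _ hmem] at h1
    have h2 := h1.diag_pos (i := i)
    simpa [pt_self] using h2
  -- the weight
  set g : Fin n → ℝ → ℝ := fun i t => q i t ^ e with hg
  have hgpos : ∀ i, ∀ t ∈ I i, 0 < g i t := fun i t ht =>
    Real.rpow_pos_of_pos (hqpos i t ht) e
  have hg2 : ∀ i, ∀ t ∈ I i, ContDiffAt ℝ 2 (g i) t := fun i t ht =>
    (hq2 i t ht).rpow_const_of_ne (hqpos i t ht).ne'
  have hgd : ∀ i, ∀ t ∈ I i, DifferentiableAt ℝ (g i) t := fun i t ht =>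
    (hg2 i t ht).differentiableAt (by norm_num)
  have hgd' : ∀ i, ∀ t ∈ I i, DifferentiableAt ℝ (deriv (g i)) t := fun i t ht =>
    ((hg2 i t ht).derivWithin (by norm_num) : ContDiffAt ℝ 1 (deriv (g i)) t).differentiableAt
      (by norm_num)
  have W : ∀ x : EuclideanSpace ℝ (Fin n), (∀ i, x i ∈ I i) →
      hess (amWeight u) x = hess (fun y : EuclideanSpace ℝ (Fin n) => ∏ j, g j (y j)) x := by
    intro x hx
    apply hess_congr'
    filter_upwards [hnear x hx] with y hy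
    unfold amWeight
    rw [H y hy, Matrix.det_diagonal]
    exact (Real.finsetProd_rpow _ _ (fun i _ => (hqpos i (y i) (hy i)).le) _).symm
  -- the equation in coordinates
  have AM : ∀ x : EuclideanSpace ℝ (Fin n), (∀ i, x i ∈ I i) →
      ∑ i, (∏ l, q l (x l)) * (q i (x i))⁻¹ * (deriv (deriv (g i)) (x i) * restProd g i x)
        = 0 := by
    intro x hx
    have h := hAM x hx
    unfold amOp at h
    rw [W x hx, H x hx] at h
    have hinv : (Matrix.diagonal (fun i => q i (x i)))⁻¹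
        = Matrix.diagonal (fun i => (q i (x i))⁻¹) := by
      apply Matrix.inv_eq_right_inv
      rw [Matrix.diagonal_mul_diagonal]
      have e1 : (fun i => q i (x i) * (q i (x i))⁻¹) = fun _ => (1 : ℝ) :=
        funext fun i => mul_inv_cancel₀ (hqpos i (x i) (hx i)).ne'
      rw [e1, Matrix.diagonal_one]
    rw [hinv, Matrix.det_diagonal] at h
    rw [← h]
    refine Finset.sum_congr rfl (fun i _ => ?_)
    have hgev : ∀ᶠ y in nhds x, ∀ j, DifferentiableAt ℝ (g j) (y j) := by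
      filter_upwards [hnear x hx] with y hy
      exact fun j => hgd j (y j) (hy j)
    rw [Finset.sum_eq_single i]
    · rw [hess_prod_diag_at g x i hgev (hgd' i (x i) (hx i))]
      simp [Matrix.smul_apply]
    · intro j _ hji
      simp [Matrix.smul_apply, Matrix.diagonal_apply_ne _ (Ne.symm hji)]
    · intro h'
      exact absurd (Finset.mem_univ i) h'
  -- division by the positive product
  set k : Fin n → ℝ → ℝ := fun i t => deriv (deriv (g i)) t / (q i t * g i t) with hk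
  have hhpos : ∀ i, ∀ t ∈ I i, 0 < q i t * g i t := fun i t ht =>
    mul_pos (hqpos i t ht) (hgpos i t ht)
  have K : ∀ x : EuclideanSpace ℝ (Fin n), (∀ i, x i ∈ I i) → ∑ i, k i (x i) = 0 := by
    intro x hx
    have hH : 0 < ∏ l, (q l (x l) * g l (x l)) :=
      Finset.prod_pos (fun l _ => hhpos l (x l) (hx l))
    have h1 : (∑ i, k i (x i)) * ∏ l, (q l (x l) * g l (x l)) = 0 := by
      rw [Finset.sum_mul, ← AM x hx]
      refine Finset.sum_congr rfl (fun i _ => ?_)
      have e1 : ∏ l, (q l (x l) * g l (x l)) = (q i (x i) * g i (x i)) *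
          ∏ l ∈ Finset.univ.erase i, (q l (x l) * g l (x l)) :=
        (Finset.mul_prod_erase Finset.univ (fun l => q l (x l) * g l (x l))
          (Finset.mem_univ i)).symm
      have e2 : ∏ l, q l (x l) = q i (x i) * ∏ l ∈ Finset.univ.erase i, q l (x l) :=
        (Finset.mul_prod_erase Finset.univ (fun l => q l (x l)) (Finset.mem_univ i)).symm
      rw [e1, e2, Finset.prod_mul_distrib]
      unfold restProd
      have hq0 := (hqpos i (x i) (hx i)).ne'
      have hg0 := (hgpos i (x i) (hx i)).ne'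
      rw [hk]
      field_simp
    exact (mul_eq_zero.1 h1).resolve_right hH.ne'
  -- separation of variables
  have Kc : ∀ i, ∀ t ∈ I i, k i t = k i (c0 i) := fun i t ht =>
    separate_box I k c0 hc0 K i t ht
  have hgdd : ∀ i, ∀ t ∈ I i, deriv (deriv (g i)) t = k i (c0 i) * (q i t * g i t) := by
    intro i t ht
    have h1 := Kc i t ht
    rw [hk] at h1
    simp only at h1
    rw [div_eq_iff (hhpos i t ht).ne'] at h1
    rw [h1]
  have hqg : ∀ i, ∀ t ∈ I i, q i t = g i t ^ (-α) := by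
    intro i t ht
    have h1 : (q i t ^ e) ^ e⁻¹ = q i t := Real.rpow_rpow_inv (hqpos i t ht).le he
    rw [heinv] at h1
    exact h1.symm
  -- a coordinate with nonpositive constant has no finite end point
  have huniv : ∀ i, k i (c0 i) ≤ 0 → I i = Set.univ := by
    intro i hci
    by_contra hne
    obtain ⟨b, hb⟩ := (Set.ne_univ_iff_exists_notMem (I i)).1 hne
    have hnpos : (1 : ℝ) ≤ (n : ℝ) := by
      have : 0 < n := i.pos
      exact_mod_cast this
    have hα2 : α < 2 := by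
      rw [hα_def, div_lt_iff₀ hn1]
      linarith
    have hd2 : ∀ t ∈ I i, deriv (deriv (g i)) t ≤ 0 := by
      intro t ht
      rw [hgdd i t ht]
      exact mul_nonpos_of_nonpos_of_nonneg hci (hhpos i t ht).le
    rcases lt_or_gt_of_ne (show c0 i ≠ b from fun h => hb (h ▸ hc0 i)) with hlt | hgt
    · obtain ⟨B, hBn, ht0B, hsub, s, hs, hsB⟩ :=
        right_end_seq (I i) (hIo i) (hIc i) (c0 i) b (hc0 i) hb hlt
      obtain ⟨M, hM⟩ := bounded_near_end (f i) (p i) (q i) (g i) (deriv (g i)) α hα1 hα2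
        (c0 i) B ht0B
        (fun t ht => (hfd i t (hsub ht)).hasDerivAt)
        (fun t ht => (hpd i t (hsub ht)).hasDerivAt)
        (fun t ht => (hgd i t (hsub ht)).hasDerivAt)
        (fun t ht => ⟨_, hd2 t (hsub ht), (hgd' i t (hsub ht)).hasDerivAt⟩)
        (fun t ht => hgpos i t (hsub ht))
        (fun t ht => hqg i t (hsub ht))
      exact hBn (mem_of_closed I f c0 hc0 hclosed i B s (fun j => hsub (hs j)) hsB M
        (fun j => hM (s j) (hs j)))
    · have hJo : IsOpen {t : ℝ | -t ∈ I i} := (hIo i).preimage continuous_neg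
      have hJc : Set.OrdConnected {t : ℝ | -t ∈ I i} := by
        refine ⟨fun x hx y hy z hz => ?_⟩
        exact (hIc i).out hy hx ⟨by linarith [hz.2], by linarith [hz.1]⟩
      have h0J : -(c0 i) ∈ {t : ℝ | -t ∈ I i} := by
        show -(-(c0 i)) ∈ I i
        rw [neg_neg]
        exact hc0 i
      have hbJ : -b ∉ {t : ℝ | -t ∈ I i} := by
        intro h
        have h' : -(-b) ∈ I i := h
        rw [neg_neg] at h'
        exact hb h'
      obtain ⟨B, hBn, ht0B, hsub, s, hs, hsB⟩ :=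
        right_end_seq {t : ℝ | -t ∈ I i} hJo hJc (-(c0 i)) (-b) h0J hbJ (by linarith)
      have hsub' : ∀ t ∈ Ico (-(c0 i)) B, -t ∈ I i := fun t ht => hsub ht
      obtain ⟨M, hM⟩ := bounded_near_end (fun t => f i (-t)) (fun t => -p i (-t))
        (fun t => q i (-t)) (fun t => g i (-t)) (fun t => -deriv (g i) (-t)) α hα1 hα2
        (-(c0 i)) B ht0B
        (fun t ht => hasDerivAt_comp_neg' (f i) _ t (hfd i (-t) (hsub' t ht)).hasDerivAt)
        (fun t ht => by
          have h1 := (hasDerivAt_comp_neg' (p i) _ t (hpd i (-t) (hsub' t ht)).hasDerivAt).neg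
          rw [neg_neg] at h1
          exact h1)
        (fun t ht => hasDerivAt_comp_neg' (g i) _ t (hgd i (-t) (hsub' t ht)).hasDerivAt)
        (fun t ht => ⟨deriv (deriv (g i)) (-t), hd2 (-t) (hsub' t ht), by
          have h1 := (hasDerivAt_comp_neg' (deriv (g i)) _ t
            (hgd' i (-t) (hsub' t ht)).hasDerivAt).neg
          rw [neg_neg] at h1
          exact h1⟩)
        (fun t ht => hgpos i (-t) (hsub' t ht))
        (fun t ht => hqg i (-t) (hsub' t ht))
      have hmem := mem_of_closed I f c0 hc0 hclosed i (-B) (fun j => -(s j))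
        (fun j => hsub' (s j) (hs j)) hsB.neg M (fun j => hM (s j) (hs j))
      exact hBn hmem
  -- the constants vanish
  have hsum : ∑ i, k i (c0 i) = 0 := by
    by_cases hn : n = 0
    · subst hn
      simp
    · have hpos0 : 0 < n := Nat.pos_of_ne_zero hn
      set i0 : Fin n := ⟨0, hpos0⟩
      have h0 := K (pt c0 i0 (c0 i0)) (pt_mem I c0 hc0 i0 (c0 i0) (hc0 i0))
      have e1 : pt c0 i0 (c0 i0) = WithLp.toLp 2 c0 := by
        unfold pt
        rw [Function.update_eq_self]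
      rw [e1] at h0
      exact h0
  have hnonpos : ∀ i, k i (c0 i) ≤ 0 → k i (c0 i) = 0 := by
    intro i hi
    have hIu := huniv i hi
    have hall : ∀ t : ℝ, t ∈ I i := fun t => by rw [hIu]; exact Set.mem_univ t
    have h2 : ∀ t, deriv (deriv (g i)) t ≤ 0 := by
      intro t
      rw [hgdd i t (hall t)]
      exact mul_nonpos_of_nonpos_of_nonneg hi (hhpos i t (hall t)).le
    have h3 := deriv_eq_zero_of_pos_of_deriv2_nonpos (g i) (fun t => hgd i t (hall t))
      (fun t => hgd' i t (hall t)) (fun t => hgpos i t (hall t)) h2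
    have h4 : deriv (g i) = fun _ => (0 : ℝ) := funext h3
    have h5 : deriv (deriv (g i)) (c0 i) = 0 := by
      rw [h4]
      simp
    rw [hgdd i (c0 i) (hc0 i)] at h5
    exact (mul_eq_zero.1 h5).resolve_right (hhpos i (c0 i) (hc0 i)).ne'
  have hnonneg : ∀ i, 0 ≤ k i (c0 i) := by
    intro i
    by_contra hneg
    have hlt : k i (c0 i) < 0 := lt_of_not_ge hneg
    have := hnonpos i hlt.le
    linarith
  have hzero : ∀ i, k i (c0 i) = 0 := fun i =>
    (Finset.sum_eq_zero_iff_of_nonneg (fun j _ => hnonneg j)).1 hsum i (Finset.mem_univ i)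
  have hIuniv : ∀ i, I i = Set.univ := fun i => huniv i (hzero i).le
  refine ⟨hIuniv, ?_⟩
  have hall : ∀ i, ∀ t : ℝ, t ∈ I i := fun i t => by rw [hIuniv i]; exact Set.mem_univ t
  exact separable_bernstein n f
    (fun i => by
      have h := hf i
      rw [hIuniv i] at h
      exact contDiffOn_univ.1 h)
    (fun x => hpos x (fun i => hall i (x i)))
    (fun x => hAM x (fun i => hall i (x i)))

end Vale.Agent.Lib.P252.SepBox
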